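import Vale.Agent.P038.H465.Base

/-! P038, blocks E and F of helper465's split (helper673). -/

namespace Vale.Agent.P038.H465.H673ef

open Finset Vale.Agent.P038.H465

attribute [local instance] Classical.propDecidable

variable {V : Type} [Fintype V]

theorem cnt_mono {p q : V → V → Prop} (h : ∀ a u, p a u → q a u) : cnt p ≤ cnt q := by
  unfold cnt
  apply Finset.card_le_card
  intro x hx
  simp only [mem_filter, mem_univ, true_and] at hx ⊢
  exact h _ _ hx

theorem cnt_split {p q : V → V → Prop} (h : ∀ a u, q a u → p a u) :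
    cnt p = cnt q + cnt (fun a u => p a u ∧ ¬ q a u) := by
  unfold cnt
  rw [← Finset.card_union_of_disjoint]
  · congr 1
    ext x
    simp only [mem_filter, mem_univ, true_and, mem_union]
    constructor
    · intro hp
      by_cases hq : q x.1 x.2
      · exact Or.inl hq
      · exact Or.inr ⟨hp, hq⟩
    · rintro (hq | hq)
      · exact h _ _ hq
      · exact hq.1
  · rw [Finset.disjoint_left]
    intro x hx hx'
    simp only [mem_filter, mem_univ, true_and] at hx hx'
    exact hx'.2 hx

theorem cnt_add_le {p q r : V → V → Prop} (h1 : ∀ a u, p a u → r a u) (h2 : ∀ a u, q a u → r a u)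
    (h3 : ∀ a u, p a u → ¬ q a u) : cnt p + cnt q ≤ cnt r := by
  unfold cnt
  rw [← Finset.card_union_of_disjoint]
  · apply Finset.card_le_card
    intro x hx
    simp only [mem_filter, mem_univ, true_and, mem_union] at hx ⊢
    rcases hx with hx | hx
    · exact h1 _ _ hx
    · exact h2 _ _ hx
  · rw [Finset.disjoint_left]
    intro x hx hx'
    simp only [mem_filter, mem_univ, true_and] at hx hx'
    exact h3 _ _ hx hx'

theorem sum_rows (B : V → Finset V) : ∑ a, (B a).card = cnt (fun a x => x ∈ B a) := by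
  rw [cnt_rows]
  apply Finset.sum_congr rfl
  intro a _
  congr 1
  ext x
  simp

theorem sum_cols (U : V → Finset V) : ∑ x, (U x).card = cnt (fun a x => a ∈ U x) := by
  rw [cnt_cols]
  apply Finset.sum_congr rfl
  intro a _
  congr 1
  ext x
  simp

theorem rot : StRot V := by
  intro D B U hO hF hkey
  set B' : V → Finset V := fun a => univ.filter (fun u => PP D U a u ∧ QQ D B a u) with hB'
  set U' : V → Finset V := fun u => univ.filter (fun a => PP D U a u ∨ (QQ D B a u ∧ ¬ D u a))
    with hU'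
  have mB' : ∀ a u, u ∈ B' a ↔ (PP D U a u ∧ QQ D B a u) := by intro a u; simp [hB']
  have mU' : ∀ a u, a ∈ U' u ↔ (PP D U a u ∨ (QQ D B a u ∧ ¬ D u a)) := by
    intro a u; simp [hU']
  have hAUdiag : ∀ a, AU D U a a := by
    intro a a' h
    exact hF.le _ _ (hF.refl _ _ h)
  have hfe : Feas D B' U' := by
    refine ⟨?_, ?_, ?_⟩
    · intro a x hax
      rw [mB']
      refine ⟨⟨a, hax, hAUdiag a⟩, ?_⟩
      intro a' ha'
      exact ⟨a, hax, hF.refl _ _ ha'⟩
    · intro a x hx
      rw [mB'] at hx
      rw [mU']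
      exact Or.inl hx.1
    · intro y z hyz hz
      rw [mU'] at hz
      rcases hz with ⟨x, hxy, hA⟩ | ⟨_, h⟩
      · rcases hxy with rfl | hxy
        · exact hF.rev _ _ hyz (hA z (Or.inl rfl))
        · exact hF.rev _ _ hxy (hA y (Or.inr hyz))
      · exact h hyz
  refine ⟨B', U', hfe, ?_⟩
  -- costs
  have e1 : ∑ a, (((B' a).card : ℤ) - (int D (B' a)).card) ≤
      (cnt (fun a u => PP D U a u ∧ QQ D B a u) : ℤ) - cnt (AB D B) := by
    have h1 : (∑ a, ((B' a).card : ℤ)) = (cnt (fun a u => PP D U a u ∧ QQ D B a u) : ℤ) := by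
      rw [← Nat.cast_sum, sum_rows]
      congr 1
      congr 1
      funext a u
      exact propext (mB' a u)
    have h2 : (cnt (AB D B) : ℤ) ≤ ∑ a, ((int D (B' a)).card : ℤ) := by
      rw [← Nat.cast_sum, sum_rows]
      norm_cast
      apply cnt_mono
      intro a x hx
      simp only [int, mem_filter, mem_univ, true_and]
      intro y hy
      rw [mB']
      constructor
      · refine ⟨x, hy, ?_⟩
        intro a' ha'
        exact hF.le _ _ (hx a' ha')
      · intro a' ha'
        exact ⟨x, hy, hx a' ha'⟩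
    rw [Finset.sum_sub_distrib, h1]
    linarith
  have e2 : ∑ x, (((cm D (U' x)).card : ℤ) - (U' x).card) ≤
      (cnt (EU D U) : ℤ) - (cnt (fun a u => PP D U a u ∧ QQ D B a u) : ℤ)
        - cnt (fun a u => PP D U a u ∧ ¬ QQ D B a u) := by
    have h1 : (∑ x, ((cm D (U' x)).card : ℤ)) ≤ (cnt (EU D U) : ℤ) := by
      rw [← Nat.cast_sum, sum_cols]
      norm_cast
      apply cnt_mono
      intro y b hy
      simp only [cm, mem_filter, mem_univ, true_and] at hy
      obtain ⟨c, hc, hyc⟩ := hy
      rw [mU'] at hc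
      rcases hc with ⟨x, hx, hA⟩ | ⟨hQ, _⟩
      · exact ⟨x, hx, hA y hyc⟩
      · obtain ⟨x, hx, hxB⟩ := hQ y hyc
        exact ⟨x, hx, hF.le _ _ hxB⟩
    have h2 : (cnt (fun a u => PP D U a u ∧ QQ D B a u) : ℤ)
        + cnt (fun a u => PP D U a u ∧ ¬ QQ D B a u) ≤ ∑ x, ((U' x).card : ℤ) := by
      rw [← Nat.cast_sum, sum_cols]
      norm_cast
      apply cnt_add_le
      · intro a u h
        rw [mU']; exact Or.inl h.1
      · intro a u h
        rw [mU']; exact Or.inl h.1
      · intro a u h h'
        exact h'.2 h.2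
    rw [Finset.sum_sub_distrib]
    linarith
  have s1 := cnt_split (p := EU D U) (q := EB D B) (by
    rintro a u ⟨x, hx, hxB⟩
    exact ⟨x, hx, hF.le _ _ hxB⟩)
  have s2 := cnt_split (p := AU D U) (q := AB D B) (by
    intro a x h a' ha'
    exact hF.le _ _ (h a' ha'))
  have s3 := cnt_split (p := fun a x => a ∈ U x) (q := fun a x => x ∈ B a) (by
    intro a x h
    exact hF.le _ _ h)
  have e3 : en' D B U = ((cnt (EB D B) : ℤ) - cnt (fun a x => x ∈ B a)) +
      ((cnt (fun a x => a ∈ U x) : ℤ) - cnt (AU D U)) := by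
    unfold en'
    rw [Finset.sum_sub_distrib, Finset.sum_sub_distrib]
    have a1 : (∑ a, ((cl D (B a)).card : ℤ)) = (cnt (EB D B) : ℤ) := by
      rw [← Nat.cast_sum, sum_rows]
      congr 2
      funext a u
      apply propext
      simp only [cl, mem_filter, mem_univ, true_and, EB]
      constructor
      · rintro ⟨x, h1, h2⟩; exact ⟨x, h2, h1⟩
      · rintro ⟨x, h1, h2⟩; exact ⟨x, h2, h1⟩
    have a2 : (∑ a, ((B a).card : ℤ)) = (cnt (fun a x => x ∈ B a) : ℤ) := by
      rw [← Nat.cast_sum, sum_rows]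
    have a3 : (∑ a, ((U a).card : ℤ)) = (cnt (fun a x => a ∈ U x) : ℤ) := by
      rw [← Nat.cast_sum, sum_cols]
    have a4 : (∑ a, ((er D (U a)).card : ℤ)) = (cnt (AU D U) : ℤ) := by
      rw [← Nat.cast_sum, sum_cols]
      congr 2
      funext a u
      apply propext
      simp only [er, mem_filter, mem_univ, true_and, AU]
    rw [a1, a2, a3, a4]
  rw [e3]
  unfold en
  have hk : (cnt (fun a u => EU D U a u ∧ ¬ EB D B a u) : ℤ)
      + cnt (fun a x => AU D U a x ∧ ¬ AB D B a x) ≤
      cnt (fun a x => a ∈ U x ∧ ¬ x ∈ B a) + cnt (fun a u => PP D U a u ∧ ¬ QQ D B a u) := by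
    exact_mod_cast hkey
  have t1 : (cnt (EU D U) : ℤ) = cnt (EB D B) + cnt (fun a u => EU D U a u ∧ ¬ EB D B a u) := by
    exact_mod_cast s1
  have t2 : (cnt (AU D U) : ℤ) = cnt (AB D B) + cnt (fun a x => AU D U a x ∧ ¬ AB D B a x) := by
    exact_mod_cast s2
  have t3 : (cnt (fun a x => a ∈ U x) : ℤ) = cnt (fun a x => x ∈ B a)
      + cnt (fun a x => a ∈ U x ∧ ¬ x ∈ B a) := by
    exact_mod_cast s3
  linarith

theorem sub_cl (D : V → V → Prop) (S : Finset V) : S ⊆ cl D S := by
  intro x hx
  simp only [cl, mem_filter, mem_univ, true_and]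
  exact ⟨x, hx, Or.inl rfl⟩

theorem h_eq_zero {D : V → V → Prop} {X : Finset V} (hX : cl D X ⊆ X) : h D X = 0 := by
  have e : cl D X = X := Finset.Subset.antisymm hX (sub_cl D X)
  unfold h
  rw [e, e]
  ring

theorem final : StFinal V := by
  intro D B U hO hF hmin hmin' hG hdeg hne
  have hnn : ∀ X : Finset V, 0 ≤ h D X := by
    intro X
    by_cases hX : cl D X ⊆ X
    · rw [h_eq_zero hX]
    · exact (hG X hX).le
  set X : V → Finset V := fun a => int D (B a) with hXdef
  set L : V → Finset V := fun a => cl D (X a) with hLdef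
  set U0 : V → Finset V := fun x => (U x).erase x with hU0def
  set M0 : V → Finset V := fun x => er D (cm D (U0 x)) with hM0def
  set M : V → Finset V := fun x => insert x (M0 x) with hMdef
  have mX : ∀ a x, x ∈ X a ↔ ∀ y, R D x y → y ∈ B a := by
    intro a x; simp [hXdef, int]
  have mL : ∀ a u, u ∈ L a ↔ ∃ x ∈ X a, R D x u := by
    intro a u; simp [hLdef, cl]
  have mU0 : ∀ a x, a ∈ U0 x ↔ (a ≠ x ∧ a ∈ U x) := by
    intro a x; simp [hU0def]
  have mcm : ∀ (S : Finset V) a, a ∈ cm D S ↔ ∃ y ∈ S, R D a y := by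
    intro S a; simp [cm]
  have mer : ∀ (S : Finset V) a, a ∈ er D S ↔ ∀ z', R D z' a → z' ∈ S := by
    intro S a; simp [er]
  have mM0 : ∀ a x, a ∈ M0 x ↔ ∀ z', R D z' a → z' ∈ cm D (U0 x) := by
    intro a x; simp only [hM0def]; rw [mer]
  have hself : ∀ b, b ∉ cm D (U0 b) := by
    intro b hb
    rw [mcm] at hb
    obtain ⟨y, hy, hR⟩ := hb
    rw [mU0] at hy
    rcases hR with rfl | hR
    · exact hy.1 rfl
    · exact hF.rev _ _ hR hy.2
  have hUM0 : ∀ x, U0 x ⊆ M0 x := by
    intro x a ha
    rw [mM0]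
    intro z' hz'
    rw [mcm]
    exact ⟨a, ha, hz'⟩
  have hM0cm : ∀ x, M0 x ⊆ cm D (U0 x) := by
    intro x a ha
    rw [mM0] at ha
    exact ha a (Or.inl rfl)
  have hbM0 : ∀ b, b ∉ M0 b := fun b hb => hself b (hM0cm b hb)
  have hXB : ∀ a, X a ⊆ B a := by
    intro a x hx
    rw [mX] at hx
    exact hx x (Or.inl rfl)
  have hLB : ∀ a, L a ⊆ B a := by
    intro a u hu
    rw [mL] at hu
    obtain ⟨x, hx, hxu⟩ := hu
    rw [mX] at hx
    exact hx u hxu
  have haX : ∀ a, a ∈ X a := by
    intro a
    rw [mX]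
    intro y hy
    exact hF.refl _ _ hy
  have hfe : Feas D L M := by
    refine ⟨?_, ?_, ?_⟩
    · intro a x hax
      rw [mL]
      exact ⟨a, haX a, hax⟩
    · intro a x hx
      simp only [hMdef, mem_insert]
      by_cases hax : a = x
      · exact Or.inl hax
      · right
        apply hUM0
        rw [mU0]
        exact ⟨hax, hF.le _ _ (hLB a hx)⟩
    · intro y z hyz hz
      simp only [hMdef, mem_insert] at hz
      rcases hz with rfl | hz
      · exact hO.1 _ hyz
      · rw [mM0] at hz
        exact hself y (hz y (Or.inr hyz))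
  -- int L = X
  have hintL : ∀ a, int D (L a) = X a := by
    intro a
    ext x
    simp only [int, mem_filter, mem_univ, true_and]
    rw [mX]
    constructor
    · intro hx y hy
      exact hLB a (hx y hy)
    · intro hx y hy
      rw [mL]
      exact ⟨x, (mX a x).2 hx, hy⟩
  have hxU : ∀ x, x ∈ U x := fun x => hF.le _ _ (hF.refl _ _ (Or.inl rfl))
  have hUM : ∀ x, U x ⊆ M x := by
    intro x a ha
    simp only [hMdef, mem_insert]
    by_cases hax : a = x
    · exact Or.inl hax
    · exact Or.inr (hUM0 x ((mU0 a x).2 ⟨hax, ha⟩))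
  have hcm : ∀ x, cm D (M x) ⊆ cm D (U x) := by
    intro x a ha
    rw [mcm] at ha ⊢
    obtain ⟨y, hy, hay⟩ := ha
    simp only [hMdef, mem_insert] at hy
    rcases hy with rfl | hy
    · exact ⟨y, hxU y, hay⟩
    · rw [mM0] at hy
      have := hy a hay
      rw [mcm] at this
      obtain ⟨y', hy', hay'⟩ := this
      exact ⟨y', ((mU0 _ _).1 hy').2, hay'⟩
  have hen : en D L M ≤ en D B U := by
    unfold en
    apply add_le_add
    · apply Finset.sum_le_sum
      intro a _
      rw [hintL a]
      have := Finset.card_le_card (hLB a)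
      have h2 : ((L a).card : ℤ) ≤ (B a).card := by exact_mod_cast this
      have h3 : ((int D (B a)).card : ℤ) = ((X a).card : ℤ) := rfl
      linarith
    · apply Finset.sum_le_sum
      intro x _
      have h1 : ((cm D (M x)).card : ℤ) ≤ (cm D (U x)).card := by
        exact_mod_cast Finset.card_le_card (hcm x)
      have h2 : ((U x).card : ℤ) ≤ (M x).card := by
        exact_mod_cast Finset.card_le_card (hUM x)
      linarith
  have hle : en D L M ≤ en' D L M := hen.trans (hmin' L M hfe)
  -- the sets Y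
  set Y : V → Finset V := fun b => (cm D (U0 b))ᶜ with hYdef
  have hclc : ∀ S : Finset V, cl D Sᶜ = (er D S)ᶜ := by
    intro S
    ext u
    simp only [cl, mem_filter, mem_univ, true_and, mem_compl]
    rw [mer]
    push Not
    constructor
    · rintro ⟨x, h1, h2⟩; exact ⟨x, h2, h1⟩
    · rintro ⟨x, h1, h2⟩; exact ⟨x, h2, h1⟩
  have hcardc : ∀ S : Finset V, ((Sᶜ).card : ℤ) = (Fintype.card V : ℤ) - S.card := by
    intro S
    rw [Finset.card_compl, Nat.cast_sub (Finset.card_le_univ S)]
  have hhY : ∀ b, h D (Y b) = -2 * ((M0 b).card : ℤ) + (cm D (U0 b)).card + (er D (M0 b)).card := by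
    intro b
    unfold h
    simp only [hYdef]
    rw [hclc, hclc, hcardc, hcardc, hcardc]
    simp only [hM0def]
    ring
  have hM0M : ∀ b, M0 b ⊆ M b := fun b => Finset.subset_insert _ _
  have hcol : ∀ b, h D (Y b) ≤ (((cm D (M b)).card : ℤ) - (M b).card)
      - (((M b).card : ℤ) - (er D (M b)).card) := by
    intro b
    rw [hhY b]
    have c1 : ((M b).card : ℤ) = (M0 b).card + 1 := by
      have : (M b).card = (M0 b).card + 1 := by
        simp only [hMdef]
        exact Finset.card_insert_of_notMem (hbM0 b)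
      exact_mod_cast this
    have c2 : ((cm D (U0 b)).card : ℤ) + 1 ≤ (cm D (M b)).card := by
      have hsub : insert b (cm D (U0 b)) ⊆ cm D (M b) := by
        intro a ha
        rw [mem_insert] at ha
        rw [mcm]
        rcases ha with rfl | ha
        · exact ⟨a, by simp [hMdef], Or.inl rfl⟩
        · rw [mcm] at ha
          obtain ⟨y, hy, hay⟩ := ha
          exact ⟨y, hM0M b (hUM0 b hy), hay⟩
      have := Finset.card_le_card hsub
      rw [Finset.card_insert_of_notMem (hself b)] at this
      exact_mod_cast this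
    have c3 : ((er D (M0 b)).card : ℤ) + 1 ≤ (er D (M b)).card := by
      have hsub : insert b (er D (M0 b)) ⊆ er D (M b) := by
        intro a ha
        rw [mem_insert] at ha
        rw [mer]
        intro z' hz'
        rcases ha with rfl | ha
        · exact hfe.le _ _ (hfe.refl _ _ hz')
        · rw [mer] at ha
          exact hM0M b (ha z' hz')
      have hnot : b ∉ er D (M0 b) := by
        intro hb
        rw [mer] at hb
        exact hbM0 b (hb b (Or.inl rfl))
      have := Finset.card_le_card hsub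
      rw [Finset.card_insert_of_notMem hnot] at this
      exact_mod_cast this
    linarith
  have hrow : ∀ a, h D (X a) = (((L a).card : ℤ) - (int D (L a)).card)
      - (((cl D (L a)).card : ℤ) - (L a).card) := by
    intro a
    rw [hintL a]
    unfold h
    simp only [hLdef]
    ring
  have hsum : (∑ a, h D (X a)) + ∑ b, h D (Y b) ≤ en D L M - en' D L M := by
    unfold en en'
    have h1 : ∑ a, h D (X a) = (∑ a, (((L a).card : ℤ) - (int D (L a)).card))
        - ∑ a, (((cl D (L a)).card : ℤ) - (L a).card) := by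
      rw [← Finset.sum_sub_distrib]
      exact Finset.sum_congr rfl (fun a _ => hrow a)
    have h2 : ∑ b, h D (Y b) ≤ (∑ b, (((cm D (M b)).card : ℤ) - (M b).card))
        - ∑ b, (((M b).card : ℤ) - (er D (M b)).card) := by
      rw [← Finset.sum_sub_distrib]
      exact Finset.sum_le_sum (fun b _ => hcol b)
    linarith
  have hY0 : 0 ≤ ∑ b, h D (Y b) := Finset.sum_nonneg (fun b _ => hnn _)
  have hX0 : ∑ a, h D (X a) ≤ 0 := by linarith
  have hXall : ∀ a, h D (X a) = 0 := by
    have : ∑ a, h D (X a) = 0 := le_antisymm hX0 (Finset.sum_nonneg (fun a _ => hnn _))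
    intro a
    exact (Finset.sum_eq_zero_iff_of_nonneg (fun a _ => hnn (X a))).1 this a (mem_univ a)
  have hclosed : ∀ a, cl D (X a) ⊆ X a := by
    intro a
    by_contra hcon
    have := hG _ hcon
    rw [hXall a] at this
    exact lt_irrefl _ this
  -- minimal nonempty closed set
  let P : Finset V → Prop := fun K => K.Nonempty ∧ cl D K ⊆ K
  have hex : ∃ K : Finset V, P K := ⟨univ, Finset.univ_nonempty, fun _ _ => mem_univ _⟩
  obtain ⟨K, hK, hKmin⟩ := Finset.exists_min_image (univ.filter P) Finset.card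
    (by obtain ⟨K, hK⟩ := hex; exact ⟨K, by simp [hK]⟩)
  rw [mem_filter] at hK
  obtain ⟨⟨a, ha⟩, hKcl⟩ := hK.2
  obtain ⟨b, hab⟩ := hdeg a
  have hbK : b ∈ K := hKcl (by
    simp only [cl, mem_filter, mem_univ, true_and]
    exact ⟨a, ha, Or.inr hab⟩)
  have hint : P (K ∩ X b) := by
    refine ⟨⟨b, mem_inter.2 ⟨hbK, haX b⟩⟩, ?_⟩
    intro u hu
    simp only [cl, mem_filter, mem_univ, true_and] at hu
    obtain ⟨x, hx, hxu⟩ := hu
    rw [mem_inter] at hx
    rw [mem_inter]
    constructor
    · apply hKcl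
      simp only [cl, mem_filter, mem_univ, true_and]
      exact ⟨x, hx.1, hxu⟩
    · apply hclosed b
      simp only [cl, mem_filter, mem_univ, true_and]
      exact ⟨x, hx.2, hxu⟩
  have hcard := hKmin (K ∩ X b) (by rw [mem_filter]; exact ⟨mem_univ _, hint⟩)
  have heq : K ∩ X b = K := Finset.eq_of_subset_of_card_le Finset.inter_subset_left hcard
  have haXb : a ∈ X b := by
    have : a ∈ K ∩ X b := by rw [heq]; exact ha
    exact (mem_inter.1 this).2
  exact hF.rev _ _ hab (hF.le _ _ (hXB b haXb))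

end Vale.Agent.P038.H465.H673ef
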